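import Mathlib
import Vale.Agent.Lib.P243.R3.Defs

/-!
# P243, job J6 (backup copy by helper75): `w ↦ Ahat K w` is continuous for a convex body `K`

Squeeze by homothetic copies: if `closedBall c ρ ⊆ K`, then
`K + [0, w'] ⊆ homothety c (1 + ‖w' - w‖ / ρ) '' (K + [0, w])`.
-/

open MeasureTheory Set
open scoped Pointwise

namespace Vale.Agent.Lib.P243.R3.H75

theorem M1f_segment_compact (w : E3) : IsCompact (segment ℝ (0 : E3) w) := by
  rw [segment_eq_image]
  exact isCompact_Icc.image (by fun_prop)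

theorem M1f_sweep_compact {K : Set E3} (hK : IsCompact K) (w : E3) :
    IsCompact (K + segment ℝ (0 : E3) w) :=
  hK.add (M1f_segment_compact w)

theorem M1f_incl {K : Set E3} (hc : Convex ℝ K) {c : E3} {ρ : ℝ} (hρ : 0 < ρ)
    (hball : Metric.closedBall c ρ ⊆ K) (w w' : E3) :
    K + segment ℝ (0 : E3) w' ⊆
      (AffineMap.homothety c (1 + ‖w' - w‖ / ρ) : E3 → E3) '' (K + segment ℝ (0 : E3) w) := by
  intro z hz
  obtain ⟨k, hk, u, hu, rfl⟩ := Set.mem_add.1 hz
  rw [segment_eq_image] at hu
  obtain ⟨t, ht, rfl⟩ := hu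
  simp only [smul_zero, zero_add]
  have hconv : Convex ℝ (K + segment ℝ (0 : E3) w) := hc.add (convex_segment 0 w)
  have hx : k + t • w ∈ K + segment ℝ (0 : E3) w := by
    refine Set.add_mem_add hk ?_
    rw [segment_eq_image]
    exact ⟨t, ht, by simp⟩
  have hKsub : K ⊆ K + segment ℝ (0 : E3) w := by
    intro y hy
    have : y + 0 ∈ K + segment ℝ (0 : E3) w := Set.add_mem_add hy (left_mem_segment ℝ 0 w)
    simpa using this
  rcases eq_or_lt_of_le (norm_nonneg (w' - w)) with h0 | hpos
  · -- w' = w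
    have hww : w' = w := by
      have : w' - w = 0 := norm_eq_zero.1 h0.symm
      exact sub_eq_zero.1 this
    subst hww
    refine ⟨k + t • w', hx, ?_⟩
    simp
  · set δ := ‖w' - w‖ with hδ
    set lam := δ / ρ with hlam
    have hlam0 : 0 < lam := div_pos hpos hρ
    -- the auxiliary point of the ball
    set b : E3 := c + (t / lam) • (w' - w) with hb
    have hbK : b ∈ K := by
      apply hball
      rw [Metric.mem_closedBall, dist_eq_norm, hb, add_sub_cancel_left, norm_smul,
        Real.norm_eq_abs, abs_of_nonneg (div_nonneg ht.1 hlam0.le), hlam]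
      rw [div_div_eq_mul_div, div_mul_eq_mul_div, div_le_iff₀ hpos]
      have : t * ρ * δ ≤ 1 * ρ * δ := by
        have := ht.2
        gcongr
      linarith
    have h1 : (0 : ℝ) < 1 + lam := by linarith
    refine ⟨(1 / (1 + lam)) • (k + t • w) + (lam / (1 + lam)) • b, ?_, ?_⟩
    · refine hconv hx (hKsub hbK) (by positivity) (by positivity) ?_
      field_simp
    · rw [AffineMap.homothety_apply]
      simp only [vsub_eq_sub, vadd_eq_add]
      rw [hb]
      have e1 : (1 + lam) * (1 / (1 + lam)) = 1 := by field_simp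
      have e2 : (1 + lam) * (lam / (1 + lam)) = lam := by field_simp
      have e3 : lam * (t / lam) = t := by field_simp
      have : (1 + lam) • ((1 / (1 + lam)) • (k + t • w) +
          (lam / (1 + lam)) • (c + (t / lam) • (w' - w)) - c) + c
          = ((1 + lam) * (1 / (1 + lam))) • (k + t • w) +
            ((1 + lam) * (lam / (1 + lam))) • c +
            ((1 + lam) * (lam / (1 + lam)) * (t / lam)) • (w' - w) - (1 + lam) • c + c := by
        simp only [smul_add, smul_sub, smul_smul, mul_assoc]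
        abel
      rw [this, e1, e2, e3]
      simp only [smul_add, smul_sub, add_smul, one_smul]
      abel

theorem M1f_vol_le {K : Set E3} (hc : Convex ℝ K) {c : E3} {ρ : ℝ} (hρ : 0 < ρ)
    (hball : Metric.closedBall c ρ ⊆ K) (w w' : E3) :
    volume (K + segment ℝ (0 : E3) w') ≤
      ENNReal.ofReal ((1 + ‖w' - w‖ / ρ) ^ 3) * volume (K + segment ℝ (0 : E3) w) := by
  have h0 : (0 : ℝ) ≤ 1 + ‖w' - w‖ / ρ := by positivity
  calc volume (K + segment ℝ (0 : E3) w')
      ≤ volume ((AffineMap.homothety c (1 + ‖w' - w‖ / ρ) : E3 → E3) ''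
          (K + segment ℝ (0 : E3) w)) := measure_mono (M1f_incl hc hρ hball w w')
    _ = ENNReal.ofReal (abs ((1 + ‖w' - w‖ / ρ) ^ Module.finrank ℝ E3)) *
          volume (K + segment ℝ (0 : E3) w) :=
        Measure.addHaar_image_homothety volume c _ _
    _ = ENNReal.ofReal ((1 + ‖w' - w‖ / ρ) ^ 3) * volume (K + segment ℝ (0 : E3) w) := by
        rw [finrank_euclideanSpace_fin, abs_of_nonneg (pow_nonneg h0 3)]

theorem M1f_real_le {K : Set E3} (hK : Body K) {c : E3} {ρ : ℝ} (hρ : 0 < ρ)
    (hball : Metric.closedBall c ρ ⊆ K) (w w' : E3) :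
    (volume (K + segment ℝ (0 : E3) w')).toReal ≤
      (1 + ‖w' - w‖ / ρ) ^ 3 * (volume (K + segment ℝ (0 : E3) w)).toReal := by
  have h0 : (0 : ℝ) ≤ (1 + ‖w' - w‖ / ρ) ^ 3 := by positivity
  have hfin : volume (K + segment ℝ (0 : E3) w) ≠ ⊤ :=
    (M1f_sweep_compact hK.compact w).measure_lt_top.ne
  have h := M1f_vol_le hK.conv hρ hball w w'
  have h2 := ENNReal.toReal_mono (ENNReal.mul_ne_top ENNReal.ofReal_ne_top hfin) h
  rwa [ENNReal.toReal_mul, ENNReal.toReal_ofReal h0] at h2

/-- `w ↦ Ahat K w` is continuous for a convex body `K`. -/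
theorem M1f_Ahat_continuous {K : Set E3} (hK : Body K) : Continuous (Ahat K) := by
  obtain ⟨c, hcint⟩ := hK.int
  obtain ⟨ρ, hρ, hball⟩ : ∃ ρ : ℝ, 0 < ρ ∧ Metric.closedBall c ρ ⊆ K := by
    obtain ⟨ε, hε, hε'⟩ := Metric.mem_nhds_iff.1 (mem_interior_iff_mem_nhds.1 hcint)
    exact ⟨ε / 2, by positivity,
      (Metric.closedBall_subset_ball (by linarith)).trans hε'⟩
  have hF : Continuous (fun w : E3 => (volume (K + segment ℝ (0 : E3) w)).toReal) := by
    rw [continuous_iff_continuousAt]
    intro w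
    have hup : Continuous (fun w' : E3 =>
        (1 + ‖w' - w‖ / ρ) ^ 3 * (volume (K + segment ℝ (0 : E3) w)).toReal) := by fun_prop
    have hlo : Continuous (fun w' : E3 =>
        (volume (K + segment ℝ (0 : E3) w)).toReal / (1 + ‖w' - w‖ / ρ) ^ 3) := by
      refine Continuous.div continuous_const (by fun_prop) ?_
      intro w'
      positivity
    have hup' := hup.tendsto w
    have hlo' := hlo.tendsto w
    simp only [sub_self, norm_zero, zero_div, add_zero, one_pow, one_mul, div_one] at hup' hlo'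
    refine tendsto_of_tendsto_of_tendsto_of_le_of_le hlo' hup' ?_ ?_
    · intro w'
      have h := M1f_real_le hK hρ hball w' w
      rw [norm_sub_rev] at h
      have hpos : (0 : ℝ) < (1 + ‖w' - w‖ / ρ) ^ 3 := by positivity
      show (volume (K + segment ℝ (0 : E3) w)).toReal / (1 + ‖w' - w‖ / ρ) ^ 3 ≤ _
      rw [div_le_iff₀ hpos]
      linarith
    · intro w'
      exact M1f_real_le hK hρ hball w w'
  have : Ahat K = fun w : E3 =>
      (volume (K + segment ℝ (0 : E3) w)).toReal - (volume K).toReal := by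
    funext w
    rfl
  rw [this]
  exact hF.sub continuous_const

end Vale.Agent.Lib.P243.R3.H75
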