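import Mathlib
import Vale.Agent.Lib.P243.CapMain
import Vale.Agent.Lib.P243.R3.Defs

/-!
# P243, job J7 (backup copy by helper75): the model chord bound `l * area(proj K) ≤ 3 vol K`

`K ⊆ ℝ × (ℝ × ℝ)` compact convex, chord from `(z0, o)` to `(z0 + l, o)`.
-/

open MeasureTheory Set Vale.Agent.Lib.P243

namespace Vale.Agent.Lib.P243.R3.H75

theorem M3l_fib_convex {K : Set (ℝ × (ℝ × ℝ))} (hc : Convex ℝ K) (q : ℝ × ℝ) :
    Convex ℝ (Cap.fib K q) := by
  intro ζ₁ h₁ ζ₂ h₂ a b ha hb hab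
  have h := hc h₁ h₂ ha hb hab
  have e : a • ((ζ₁, q) : ℝ × (ℝ × ℝ)) + b • ((ζ₂, q) : ℝ × (ℝ × ℝ)) = (a • ζ₁ + b • ζ₂, q) := by
    ext
    · simp
    · simp only [Prod.smul_mk, Prod.mk_add_mk, Prod.fst_add, Prod.smul_fst]
      rw [← add_smul, hab, one_smul]
    · simp only [Prod.smul_mk, Prod.mk_add_mk, Prod.snd_add, Prod.smul_snd]
      rw [← add_smul, hab, one_smul]
  rw [e] at h
  exact h

theorem M3l_len_o {K : Set (ℝ × (ℝ × ℝ))} (hK : IsCompact K) (hc : Convex ℝ K) {z0 l : ℝ}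
    {o : ℝ × ℝ} (hl : 0 ≤ l) (h0 : (z0, o) ∈ K) (h1 : (z0 + l, o) ∈ K) :
    l ≤ Cap.len K o := by
  have hsub : Icc z0 (z0 + l) ⊆ Cap.fib K o :=
    (M3l_fib_convex hc o).ordConnected.out h0 h1
  have hvol : ENNReal.ofReal l ≤ volume (Cap.fib K o) := by
    have := measure_mono (μ := (volume : Measure ℝ)) hsub
    rwa [Real.volume_Icc, add_sub_cancel_left] at this
  have h2 := ENNReal.toReal_mono (Cap.fib_fin hK o) hvol
  rwa [ENNReal.toReal_ofReal hl] at h2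

theorem M3l_pt (θ : ℝ) (o q : ℝ × ℝ) : o + θ • (q - o) = (1 - θ) • o + θ • q := by
  rw [smul_sub, sub_smul, one_smul]
  abel

theorem M3l_lev_ge {K : Set (ℝ × (ℝ × ℝ))} (hK : IsCompact K) (hc : Convex ℝ K) {z0 l : ℝ}
    {o : ℝ × ℝ} (hl : 0 < l) (h0 : (z0, o) ∈ K) (h1 : (z0 + l, o) ∈ K) {t : ℝ} (ht0 : 0 ≤ t)
    (ht : t ≤ l) :
    (fun q : ℝ × ℝ => o + (1 - t / l) • (q - o)) '' (Prod.snd '' K) ⊆ Cap.lev K t := by
  rintro _ ⟨q, hq, rfl⟩
  have ho : o ∈ Prod.snd '' K := ⟨(z0, o), h0, rfl⟩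
  obtain ⟨θ, hθ⟩ : ∃ θ : ℝ, θ = 1 - t / l := ⟨_, rfl⟩
  have htl : t / l ≤ 1 := (div_le_one hl).2 ht
  have htl0 : 0 ≤ t / l := div_nonneg ht0 hl.le
  have hθ0 : 0 ≤ θ := by rw [hθ]; linarith
  have hθ1 : θ ≤ 1 := by rw [hθ]; linarith
  show o + (1 - t / l) • (q - o) ∈ Cap.lev K t
  rw [← hθ, M3l_pt]
  refine ⟨?_, ?_⟩
  · obtain ⟨k, hk, rfl⟩ := hq
    exact ⟨(1 - θ) • ((z0, o) : ℝ × (ℝ × ℝ)) + θ • k,
      hc h0 hk (sub_nonneg.2 hθ1) hθ0 (by ring), rfl⟩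
  · have hcon := Cap.len_concave hK hc ho hq θ hθ0 hθ1
    have hlen := M3l_len_o hK hc hl.le h0 h1
    have hq0 : 0 ≤ Cap.len K q := Cap.len_nonneg q
    have e : 1 - θ = t / l := by rw [hθ]; ring
    have h3 : t ≤ (1 - θ) * Cap.len K o := by
      rw [e]
      calc t = t / l * l := by field_simp
        _ ≤ t / l * Cap.len K o := mul_le_mul_of_nonneg_left hlen htl0
    have h4 : 0 ≤ θ * Cap.len K q := mul_nonneg hθ0 hq0
    linarith

/-- Area of a homothetic copy in the plane. -/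
theorem M3l_vol_hom (c : ℝ × ℝ) (r : ℝ) (P : Set (ℝ × ℝ)) :
    volume ((fun q : ℝ × ℝ => c + r • (q - c)) '' P) = ENNReal.ofReal (r ^ 2) * volume P := by
  have e : (fun q : ℝ × ℝ => c + r • (q - c)) = (AffineMap.homothety c r : ℝ × ℝ → ℝ × ℝ) := by
    funext q
    rw [AffineMap.homothety_apply]
    simp only [vsub_eq_sub, vadd_eq_add]
    rw [add_comm]
  rw [e, Measure.addHaar_image_homothety]
  have hfin : Module.finrank ℝ (ℝ × ℝ) = 2 := by simp
  rw [hfin, abs_of_nonneg (sq_nonneg r)]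

/-- The integral of `(1 - t / l)^2` over `(0, l]`. -/
theorem M3l_lint {l : ℝ} (hl : 0 < l) :
    ∫⁻ t in Ioc (0 : ℝ) l, ENNReal.ofReal ((1 - t / l) ^ 2) = ENNReal.ofReal (l / 3) := by
  have hcont : Continuous (fun t : ℝ => (1 - t / l) ^ 2) := by fun_prop
  have hint : IntegrableOn (fun t : ℝ => (1 - t / l) ^ 2) (Ioc 0 l) :=
    (hcont.integrableOn_Icc).mono_set Ioc_subset_Icc_self
  rw [← ofReal_integral_eq_lintegral_ofReal hint (ae_of_all _ (fun t => sq_nonneg _))]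
  congr 1
  rw [← intervalIntegral.integral_of_le hl.le]
  have hderiv : ∀ t ∈ Set.uIcc (0 : ℝ) l,
      HasDerivAt (fun t : ℝ => -(l / 3) * (1 - t / l) ^ 3) ((1 - t / l) ^ 2) t := by
    intro t _
    have h1 : HasDerivAt (fun t : ℝ => 1 - t / l) (-(1 / l)) t := by
      have := ((hasDerivAt_id t).div_const l).const_sub 1
      simpa using this
    have h2 : HasDerivAt (fun t : ℝ => -(l / 3) * (1 - t / l) ^ 3)
        (-(l / 3) * (((3 : ℕ) : ℝ) * (1 - t / l) ^ (3 - 1) * -(1 / l))) t :=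
      (h1.pow 3).const_mul (-(l / 3))
    have hl' : l ≠ 0 := hl.ne'
    have e : -(l / 3) * (((3 : ℕ) : ℝ) * (1 - t / l) ^ (3 - 1) * -(1 / l)) = (1 - t / l) ^ 2 := by
      norm_num
      field_simp
    rw [e] at h2
    exact h2
  rw [intervalIntegral.integral_eq_sub_of_hasDerivAt hderiv (hcont.intervalIntegrable 0 l)]
  have hll : l / l = 1 := div_self hl.ne'
  simp only [hll, sub_self, zero_div, sub_zero]
  ring

theorem M3l_model_le {K : Set (ℝ × (ℝ × ℝ))} (hK : IsCompact K) (hc : Convex ℝ K) {z0 l : ℝ}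
    {o : ℝ × ℝ} (hl : 0 ≤ l) (h0 : (z0, o) ∈ K) (h1 : (z0 + l, o) ∈ K) :
    ENNReal.ofReal l * volume (Prod.snd '' K) ≤ 3 * volume K := by
  rcases eq_or_lt_of_le hl with h | hpos
  · rw [← h]
    simp
  have hPfin : volume (Prod.snd '' K) ≠ ⊤ := (hK.image continuous_snd).measure_lt_top.ne
  have key : ENNReal.ofReal (l / 3) * volume (Prod.snd '' K) ≤ volume K := by
    calc ENNReal.ofReal (l / 3) * volume (Prod.snd '' K)
        = (∫⁻ t in Ioc (0 : ℝ) l, ENNReal.ofReal ((1 - t / l) ^ 2)) * volume (Prod.snd '' K) := by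
          rw [M3l_lint hpos]
      _ = ∫⁻ t in Ioc (0 : ℝ) l, ENNReal.ofReal ((1 - t / l) ^ 2) * volume (Prod.snd '' K) :=
          (lintegral_mul_const' _ _ hPfin).symm
      _ ≤ ∫⁻ t in Ioc (0 : ℝ) l, volume (Cap.lev K t) := by
          refine setLIntegral_mono' measurableSet_Ioc ?_
          intro t ht
          rw [← M3l_vol_hom o (1 - t / l) (Prod.snd '' K)]
          exact measure_mono (M3l_lev_ge hK hc hpos h0 h1 ht.1.le ht.2)
      _ ≤ ∫⁻ t in Ioi (0 : ℝ), volume (Cap.lev K t) :=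
          lintegral_mono_set Ioc_subset_Ioi_self
      _ = volume K := (Cap.vol_eq hK).symm
  have h3 : ENNReal.ofReal l = 3 * ENNReal.ofReal (l / 3) := by
    rw [show l = 3 * (l / 3) by ring, ENNReal.ofReal_mul (by norm_num : (0 : ℝ) ≤ 3)]
    norm_num
  calc ENNReal.ofReal l * volume (Prod.snd '' K)
      = 3 * (ENNReal.ofReal (l / 3) * volume (Prod.snd '' K)) := by rw [h3, mul_assoc]
    _ ≤ 3 * volume K := by gcongr

end Vale.Agent.Lib.P243.R3.H75
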